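import Vale.Agent.P352X.R.G1.B
import Vale.Agent.P352Z.P352X.Main0

open Vale.Agent.P352G

/-!
# P352X, row G1: covariant distributions, generators
-/

noncomputable section

open Set Filter Topology Metric
open scoped SchwartzMap ContDiff

namespace Vale.Agent.P352X

open Vale.Agent.P352 Vale.Agent.P352.GF Vale.Agent.P352.H246 Vale.Agent.P352.H755
open Vale.Agent.P352.H15
open UniformSpace (Completion)
open Complex (I)

namespace G1Z

section hilbert

variable {H : Type*} [NormedAddCommGroup H] [InnerProductSpace ℂ H] {f : Fn}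

variable [CompleteSpace H] {M : VonNeumannAlgebra H} {ξ ψ ψ' φ φ' : H}

end hilbert

variable {D : Type*} [NormedAddCommGroup D] [InnerProductSpace ℂ D] [GrD D] {c : CtxZ D}
  {Φ Φ' : Fn →ₗ[ℂ] Completion D} {x y : ℝ} {f g : Fn}

theorem cbd {φ : Fn → Completion D} (h : c.Cov2 φ x y) {K : Set V} (hK : IsCompact K) :
    _root_.Vale.Agent.P352X.G1.BD K fun f => ‖φ f‖ := h.bd K hK

theorem cov_congr {φ ψ : Fn → Completion D} (h : c.Cov2 φ x y) (e : ∀ f, In univ f → ψ f = φ f) :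
    c.Cov2 ψ x y where
  lin f g a hf hg := by
    rw [e f hf, e g hg, ← h.lin f g a hf hg]
    exact e _ (_root_.Vale.Agent.P352X.G1.in_add hf hg a)
  bd K hK := (cbd h hK).le (N' := fun f => ‖ψ f‖) hK 1 fun f hf => by simp [e f (_root_.Vale.Agent.P352X.G1.all hf)]
  tra a f hf := by
    rw [e f hf, ← h.tra a f hf]
    exact congrArg _ (e _ (_root_.Vale.Agent.P352X.G1.in_tr hf a fun _ _ => trivial))
  rot w f hf := by rw [e f hf, e _ (_root_.Vale.Agent.P352X.G1.in_gap hf w fun _ _ => trivial), h.rot w f hf]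
  sca r s f hr hs hf := by rw [e f hf, e _ (_root_.Vale.Agent.P352X.G1.in_scp hf hr hs fun _ _ => trivial), h.sca r s f hr hs hf]
  perp f hf := by rw [e f hf, h.perp f hf]

theorem ut_phi (h : c.Cov2 Φ x y) (hf : In univ f) (a : V) : Ut c.Q a (Φ f) = Φ (_root_.Vale.Agent.P352X.G1.tr (-a) f) := by
  have k := h.tra a _ (_root_.Vale.Agent.P352X.G1.in_tr hf (-a) fun _ _ => trivial)
  rwa [show (fun z => _root_.Vale.Agent.P352X.G1.tr (-a) f (z + a)) = f from funext fun z => by simp [_root_.Vale.Agent.P352X.G1.tr]] at k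

theorem gn_of {W : ℝ → Completion D →L[ℂ] Completion D} (h : c.Cov2 Φ x y) (hf : In univ f)
    {g : ℝ → V →L[ℝ] V} {a : ℝ → V} {g' : V →L[ℝ] V} {a' : V} (hg : HasDerivAt g g' 0)
    (ha : HasDerivAt a a' 0) (g0 : g 0 = 1) (a0 : a 0 = 0) {σ : ℝ → V → V}
    (e : ∀ t z, g t z + a t = σ t z) (ht : ∀ t, In univ fun z => f (σ t z))
    (hW : ∀ t, W t (Φ f) = Φ fun z => f (σ t z)) {k : Fn}
    (hk : ∀ z, k z = -fderiv ℝ f z (g' z + a')) : Gn W (Φ f) (I • Φ k) := by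
  have d := _root_.Vale.Agent.P352X.G1.der h.bd hf hg ha g0 a0 (by simpa only [e] using ht)
  simp only [e, ← hW] at d
  rw [Gn, smul_smul, Complex.I_mul_I, neg_one_smul, ← map_neg]
  convert d
  simp [hk]

theorem gn_ut (h : c.Cov2 Φ x y) (hf : In univ f) (v : V) :
    Gn (fun t => Ut c.Q (t • v)) (Φ f) (I • Φ (dv v f)) :=
  gn_of h hf (hasDerivAt_const 0 1) ((hasDerivAt_id' (0 : ℝ)).smul_const v).fun_neg rfl (by simp)
    (σ := fun t z => z + -(t • v)) (fun _ _ => rfl) (fun _ => _root_.Vale.Agent.P352X.G1.in_tr hf _ fun _ _ => trivial)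
    (fun _ => ut_phi h hf _) fun z => by simp [_root_.Vale.Agent.P352X.G1.dv_eq (_root_.Vale.Agent.P352X.G1.diff hf z)]

theorem gn_mi (h : c.Cov2 Φ x y) (hf : In univ f) (i : Fin 2) :
    Gn (Mi c.Q i) (Φ f) (I • Φ (Mc i f)) := by
  have d := hasDerivAt_id' (0 : ℝ)
  refine gn_of h hf (((d.smul_const ((mdL (ex i)).smulRight va - beL.smulRight (ex i))).const_add
    1).fun_add (((d.fun_pow 2).div_const 2).smul_const (beL.smulRight va))) (hasDerivAt_const 0 0)
    (by simp) rfl (σ := fun t => gap (-(t • e2 i))) (fun t z => null_ext ?_ (by simp) (by simp [smul_comm t]))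
    (fun _ => _root_.Vale.Agent.P352X.G1.in_gap hf _ fun _ _ => trivial) (fun t => ?_) fun z => ?_
  · simp [md_ex, d2_neg, d2_neg_l, d2_smul, d2_smul_l]
    ring
  · have k := h.rot (t • e2 i) _ (_root_.Vale.Agent.P352X.G1.in_gap hf (-(t • e2 i)) fun _ _ => trivial)
    simp only [gap_gap, neg_add_cancel, gap_zero] at k
    exact k
  · simp [Mc, _root_.Vale.Agent.P352X.G1.dv_eq (_root_.Vale.Agent.P352X.G1.diff hf z), md_ex]
    ring

theorem gn_bo (h : c.Cov2 Φ (-1) (-1)) (hf : In univ f) : Gn (Bo c.Q) (Φ f) (I • Φ (Bc f)) := by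
  have e : ∀ t, Real.exp t * Real.exp (-t) = 1 := fun t => by simp [← Real.exp_add]
  have e' : ∀ t, Real.exp (-t) * Real.exp t = 1 := fun t => by simp [← Real.exp_add]
  refine gn_of h hf (((((hasDerivAt_neg' (0 : ℝ)).exp.sub_const 1).smul_const
    (alL.smulRight va)).const_add 1).fun_add (((Real.hasDerivAt_exp 0).sub_const 1).smul_const
      (beL.smulRight vb))) (hasDerivAt_const 0 0) (by simp) rfl
    (σ := fun t => scp (Real.exp (-t)) (Real.exp t)) (fun t z => null_ext ?_ ?_ (by simp [e']))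
    (fun _ => _root_.Vale.Agent.P352X.G1.in_scp hf (Real.exp_pos _) (Real.exp_pos _) fun _ _ => trivial) (fun t => ?_)
    fun z => ?_
  · simp
    ring
  · simp
    ring
  · have k := h.sca _ _ _ (Real.exp_pos t) (Real.exp_pos (-t))
      (_root_.Vale.Agent.P352X.G1.in_scp hf (Real.exp_pos (-t)) (Real.exp_pos t) fun _ _ => trivial)
    rwa [_root_.Vale.Agent.P352X.G1.w1, ← mul_inv, ← Complex.ofReal_mul, e, funext fun z =>
      congrArg f (scp_scp z (Real.exp_pos _).le (Real.exp_pos _).le), e, e', funext fun z =>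
      congrArg f (scp_one z), Complex.ofReal_one, inv_one, one_smul] at k
  · simp [Bc, _root_.Vale.Agent.P352X.G1.dv_eq (_root_.Vale.Agent.P352X.G1.diff hf z)]
    ring

/-- the class of pairs of distributions of dimension two -/
structure C2 (c : CtxZ D) (Φ Φ' : Fn →ₗ[ℂ] Completion D) : Prop where
  cov : c.Cov2 Φ (-1) (-1)
  cov' : c.Cov2 Φ' (-1) (-1)
  pr : ∀ r > 0, ∀ f, In (Rc r 0) f → Pr (c.N (Rc r 0)) c.Om (Φ f) (Φ' (bar f))

theorem ut_norm (t : T2Z c) (a : V) (z : Completion D) : ‖Ut c.Q a z‖ = ‖z‖ :=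
  ContinuousLinearMap.norm_map_of_mem_unitary (t.grp.uni _ _ _) z

theorem C2.dom (t : T2Z c) (h : C2 c Φ Φ') {K : Set V} (hK : IsCompact K) (k : K ⊆ _root_.Vale.Agent.P352X.G1.Hs 0) :
    (∀ f, In K f → Dm c.SK (Φ f)) ∧ _root_.Vale.Agent.P352X.G1.BD K fun f => ‖gen c.SK (Φ f)‖ := by
  obtain ⟨s, r, r0, hr⟩ := _root_.Vale.Agent.P352X.G1.ex_cone hK k
  obtain ⟨C, hC⟩ := t.kd.a r r0
  have hK' := hK.image (f := fun z => z + s • va) (by fun_prop)
  have m : ∀ z, z + -s • va ∈ K → z ∈ (fun z => z + s • va) '' K := fun z hz => ⟨_, hz, by simp⟩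
  have q : ∀ f, In K f → Dm c.SK (Φ f) ∧ ‖gen c.SK (Φ f)‖ ≤ C * (‖Φ (_root_.Vale.Agent.P352X.G1.tr (-s • va) f)‖ +
      ‖Φ' (bar (_root_.Vale.Agent.P352X.G1.tr (-s • va) f))‖ + ‖Φ (Bc (_root_.Vale.Agent.P352X.G1.tr (-s • va) f))‖) := fun f hf => by
    have a := _root_.Vale.Agent.P352X.G1.in_tr hf (-s • va) m
    have b := gn_bo h.cov (_root_.Vale.Agent.P352X.G1.all a)
    obtain ⟨a1, a2⟩ := hC _ _ (h.pr r r0 _ (_root_.Vale.Agent.P352X.G1.mono a hr)) b.dm
    obtain ⟨a3, a4⟩ := a1.comm (t.grp.pa_S (-s))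
    rw [show Pa c.Q (-s) (Φ (_root_.Vale.Agent.P352X.G1.tr (-s • va) f)) = Φ f from h.cov.tra _ f (_root_.Vale.Agent.P352X.G1.all hf)] at a3 a4
    rw [b.gen_eq, norm_smul, Complex.norm_I, one_mul] at a2
    exact ⟨a3, by rwa [a4, Pa, ut_norm t]⟩
  refine ⟨fun f hf => (q f hf).1, _root_.Vale.Agent.P352X.G1.BD.le (((((cbd h.cov hK').add ((cbd h.cov' hK').lo
    _root_.Vale.Agent.P352X.G1.lo_bar)).add ((cbd h.cov hK').lo _root_.Vale.Agent.P352X.G1.lo_Bc))).comp (_root_.Vale.Agent.P352X.G1.cl_tr (-s • va)) fun f hf z hz =>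
      m z (hf (_root_.Vale.Agent.P352X.G1.tsupp_tr f _ hz))) hK C fun f hf =>
        (q f hf).2.trans (mul_le_mul_of_nonneg_right (le_abs_self C) (by positivity))⟩

theorem C2.dm (t : T2Z c) (h : C2 c Φ Φ') (hf : In (_root_.Vale.Agent.P352X.G1.Hs 0) f) : Dm c.SK (Φ f) :=
  (h.dom t hf.2.1 hf.2.2).1 f ⟨hf.1, hf.2.1, le_rfl⟩

end G1Z

end Vale.Agent.P352X
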