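import Vale.Agent.P352X.R.G1.C
import Vale.Agent.P352Z.P352X.R.G1.B

open Vale.Agent.P352G

/-!
# P352X, row G1: the defect of the geometric action of `K`
-/

noncomputable section

open Set Filter Topology
open scoped SchwartzMap ContDiff

namespace Vale.Agent.P352X

open Vale.Agent.P352 Vale.Agent.P352.GF Vale.Agent.P352.H246 Vale.Agent.P352.H755
open Vale.Agent.P352.H15
open UniformSpace (Completion)
open Complex (I)

namespace G1Z

variable {D : Type*} [NormedAddCommGroup D] [InnerProductSpace ℂ D] [GrD D] {c : CtxZ D}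
  {Φ Φ' : Fn →ₗ[ℂ] Completion D} {f g : Fn} {y y' : V} {u u' : ℝ}

/-- the defect -/
def R0 (c : CtxZ D) (Φ : Fn →ₗ[ℂ] Completion D) (f : Fn) : Completion D :=
  I • gen c.SK (Φ f) - Φ (Kc 2 f)

/-- the defect with the centre `y` -/
def RY (c : CtxZ D) (Φ : Fn →ₗ[ℂ] Completion D) (y : V) (f : Fn) : Completion D :=
  Ut c.Q y (R0 c Φ (_root_.Vale.Agent.P352X.G1.tr y f))

theorem ut_ut (t : T2Z c) (x y : V) (z : Completion D) : Ut c.Q x (Ut c.Q y z) = Ut c.Q (x + y) z := by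
  rw [t.grp.ut]
  rfl

theorem ug_sk (t : T2Z c) : UG c.SK :=
  .of (c.hS.zero _ t.grp.na) (fun _ _ => c.hS.add _ _ _ t.grp.na) (fun _ => t.grp.S_uni _ _ t.grp.na)
    fun _ => c.hS.cont _ _ t.grp.na

variable (t : T2Z c) (h : C2 c Φ Φ')
include t h

theorem gn_ky (hf : In (_root_.Vale.Agent.P352X.G1.Hs (be y)) f) :
    Gn (c.Ky y) (Φ f) (Ut c.Q y (gen c.SK (Φ (_root_.Vale.Agent.P352X.G1.tr y f)))) :=
  ((h.dm t (_root_.Vale.Agent.P352X.G1.hs_tr hf y (zero_add _).ge)).gn.map (W' := c.Ky y) (Ut c.Q y) fun s => by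
    simp only [CtxZ.Ky, mul_apply_eq_comp, ut_ut t, neg_add_cancel, t.grp.ut0,
      one_apply_eq_self]).cast (h.cov.tra y f (_root_.Vale.Agent.P352X.G1.all hf)).symm rfl

theorem ry_eq (hf : In (_root_.Vale.Agent.P352X.G1.Hs (be y)) f) : RY c Φ y f = I • gen (c.Ky y) (Φ f) - Φ fun z =>
    -fderiv ℝ f z (cK va (z - y)) + ((2 * 2 - 8) * (be z - be y) : ℝ) * f z := by
  rw [RY, R0, map_sub, map_smul, (gn_ky t h hf).gen_eq,
    ut_phi h.cov (_root_.Vale.Agent.P352X.G1.all ((_root_.Vale.Agent.P352X.G1.lo_Kc 2).mem (_root_.Vale.Agent.P352X.G1.hs_tr hf y (zero_add _).ge))), funext (_root_.Vale.Agent.P352X.G1.Kc_tr (_root_.Vale.Agent.P352X.G1.diff hf) y 2)]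

theorem ry_a (hf : In (_root_.Vale.Agent.P352X.G1.Hs 0) f) (s : ℝ) : RY c Φ (s • va) f = R0 c Φ f := by
  have e : c.Ky (s • va) = c.SK := funext fun r => by
    rw [CtxZ.Ky, ← Pa, t.grp.pa_S, Pa, mul_assoc, ← t.grp.ut, add_neg_cancel, t.grp.ut0, mul_one]
  rw [ry_eq t h (by simpa using hf), e, R0]
  congr 2
  funext z
  rw [_root_.Vale.Agent.P352X.G1.Kc_eq (_root_.Vale.Agent.P352X.G1.diff hf z), show cK va (z - s • va) = cK va z from
    null_ext (by simp [_root_.Vale.Agent.P352X.G1.al_cK]) (by simp [_root_.Vale.Agent.P352X.G1.be_cK]) (by simp [_root_.Vale.Agent.P352X.G1.tx_cK])]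
  simp

theorem ry_x (hf : In (_root_.Vale.Agent.P352X.G1.Hs 0) f) (x : R2) : RY c Φ (tv x) f = R0 c Φ f := by
  have m := gn_mi h.cov (_root_.Vale.Agent.P352X.G1.all hf)
  have p : Gn (Pa c.Q) _ _ := gn_ut h.cov (_root_.Vale.Agent.P352X.G1.all hf) va
  have e : (fun z => -fderiv ℝ f z (cK va (z - tv x)) + ((2 * 2 - 8) * (be z - be (tv x)) : ℝ) * f z)
      = Kc 2 f + (2 * x 0 : ℂ) • Mc 0 f + (2 * x 1 : ℂ) • Mc 1 f - (d2 x x : ℂ) • dv va f := by
    funext z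
    rw [show cK va (z - tv x) = cK va z - (2 * d2 x (tx z)) • va - (2 * be z) • tv x +
      d2 x x • va from null_ext (by simp [_root_.Vale.Agent.P352X.G1.al_cK, d2_sub, d2_sub_l, d2_comm x]; ring)
        (by simp [_root_.Vale.Agent.P352X.G1.be_cK]) (by simp [_root_.Vale.Agent.P352X.G1.tx_cK, smul_sub]), tv_eq, d2_eq x (tx z)]
    simp [_root_.Vale.Agent.P352X.G1.Kc_eq (_root_.Vale.Agent.P352X.G1.diff hf z), Mc, _root_.Vale.Agent.P352X.G1.dv_eq (_root_.Vale.Agent.P352X.G1.diff hf z)]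
    ring
  rw [ry_eq t h (by simpa using hf), (t.gen.ky x _ (h.dm t hf) (fun i => (m i).dm) p.dm).gen_eq, e,
    R0, p.gen_eq]
  simp only [Fin.sum_univ_two, (m _).gen_eq, map_add, map_sub, map_smul, ← Complex.coe_smul]
  push_cast
  match_scalars <;> simp [← mul_assoc] <;> ring_nf <;> simp

theorem ry_be (hf : In (_root_.Vale.Agent.P352X.G1.Hs (be y)) f) (e : be y' = be y) : RY c Φ y' f = RY c Φ y f := by
  have e' : y' = y + (al (y' - y) • va + tv (tx (y' - y))) :=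
    null_ext (by simp) (by simp [e]) (by simp)
  have k := _root_.Vale.Agent.P352X.G1.hs_tr hf y (zero_add _).ge
  rw [RY.eq_def c Φ y, ← ry_a t h k (al (y' - y)), RY.eq_def c Φ (_ • va),
    ← ry_x t h (_root_.Vale.Agent.P352X.G1.hs_tr k _ (by simp)) (tx (y' - y)), RY.eq_def c Φ (tv _), _root_.Vale.Agent.P352X.G1.tr_tr, _root_.Vale.Agent.P352X.G1.tr_tr, ut_ut t,
    ut_ut t, add_assoc, ← e', add_comm (tv _), add_comm _ y, ← e', RY]

omit t h in
/-- the defect for `K(u)` -/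
def R (c : CtxZ D) (Φ : Fn →ₗ[ℂ] Completion D) (u : ℝ) : Fn → Completion D := RY c Φ (u • vb)

theorem r_eq (hf : In (_root_.Vale.Agent.P352X.G1.Hs u) f) (e : be y = u) : RY c Φ y f = R c Φ u f :=
  ry_be t h (by simpa using hf) (by simpa using e)

theorem r_tra (hf : In (_root_.Vale.Agent.P352X.G1.Hs u) f) (a : V) : Ut c.Q a (R c Φ (u - be a) (_root_.Vale.Agent.P352X.G1.tr a f)) = R c Φ u f := by
  rw [R, RY, ut_ut t, _root_.Vale.Agent.P352X.G1.tr_tr, add_comm a]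
  exact r_eq t h hf (by simp)

theorem r_map {U : Completion D →L[ℂ] Completion D} (L : V →L[ℝ] V) {s : ℝ} {κ : ℂ} (s0 : 0 < s)
    (h1 : ∀ z, be (L z) = s * be z) (h2 : ∀ z, cK va (L z) = s • L (cK va z))
    (h3 : ∀ y, U * Ut c.Q y = Ut c.Q (L y) * U) (h4 : ∀ r, U * c.SK r = c.SK (r / s) * U)
    (h5 : ∀ f, In univ f → U (Φ fun z => f (L z)) = κ • Φ f)
    (h6 : ∀ f, In (_root_.Vale.Agent.P352X.G1.Hs 0) f → In (_root_.Vale.Agent.P352X.G1.Hs 0) fun z => f (L z)) (hf : In (_root_.Vale.Agent.P352X.G1.Hs (s * u)) f) :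
    U (R c Φ u fun z => f (L z)) = (κ / s) • R c Φ (s * u) f := by
  have k := _root_.Vale.Agent.P352X.G1.hs_tr hf (L (u • vb)) (v := 0) (by simp [h1, mul_comm])
  have s1 : (s : ℂ) ≠ 0 := Complex.ofReal_ne_zero.2 s0.ne'
  have e1 := ((h.dm t (h6 _ k)).gn.scale (W' := c.SK) U s (ψ' := U (Φ fun z => _root_.Vale.Agent.P352X.G1.tr _ f (L z))) fun r => by
    rw [← mul_apply_eq_comp U, h4, mul_div_cancel_left₀ r s0.ne']
    rfl).gen_eq
  have e2 := h5 _ (_root_.Vale.Agent.P352X.G1.all ((_root_.Vale.Agent.P352X.G1.lo_Kc 2).mem k))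
  rw [h5 _ (_root_.Vale.Agent.P352X.G1.all k), gen_smul _ (h.dm t k), ← Complex.coe_smul] at e1
  rw [funext (_root_.Vale.Agent.P352X.G1.Kc_lin (_root_.Vale.Agent.P352X.G1.diff k) L s 2 h1 h2), show (fun z => (s : ℂ) * Kc 2 (fun z =>
    _root_.Vale.Agent.P352X.G1.tr (L (u • vb)) f (L z)) z) = (s : ℂ) • Kc 2 fun z => _root_.Vale.Agent.P352X.G1.tr (L (u • vb)) f (L z) from rfl, map_smul,
    map_smul] at e2
  rw [← r_eq t h hf (y := L (u • vb)) (by simp [h1, mul_comm]), R, RY, RY, ← mul_apply_eq_comp, h3,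
    mul_apply_eq_comp, ← map_smul (Ut _ _), show _root_.Vale.Agent.P352X.G1.tr (u • vb) (fun z => f (L z)) =
      fun z => _root_.Vale.Agent.P352X.G1.tr (L (u • vb)) f (L z) from funext fun z => by simp only [_root_.Vale.Agent.P352X.G1.tr, map_add], R0, R0,
    map_sub, map_smul U, (eq_inv_smul_iff₀ s1).2 e1.symm, (eq_inv_smul_iff₀ s1).2 e2]
  congr 1
  match_scalars <;> field_simp

theorem r_rot (hf : In (_root_.Vale.Agent.P352X.G1.Hs u) f) (w : R2) :
    Ga c.Q w (R c Φ u fun z => f (gap w z)) = R c Φ u f := by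
  simpa using r_map t h (U := Ga c.Q w) (gapL w) (κ := 1) one_pos (by simp) (fun z => null_ext
    (by simp [_root_.Vale.Agent.P352X.G1.al_cK, _root_.Vale.Agent.P352X.G1.be_cK, _root_.Vale.Agent.P352X.G1.tx_cK, d2_add, d2_add_l, d2_smul, d2_smul_l, d2_comm w]; ring)
    (by simp [_root_.Vale.Agent.P352X.G1.be_cK]) (by
      simp only [gapL_apply, _root_.Vale.Agent.P352X.G1.tx_cK, _root_.Vale.Agent.P352X.G1.be_cK, tx_gap, be_gap, one_smul]
      module)) (by simpa using t.grp.ga_ut w)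
    (by simpa using t.grp.ga_S w) (by simpa using h.cov.rot w)
    (fun f hf => by simpa using _root_.Vale.Agent.P352X.G1.in_gap hf w fun z hz => by simpa [_root_.Vale.Agent.P352X.G1.Hs] using hz) (u := u)
    (by simpa using hf)

theorem r_sca {r s : ℝ} (r0 : 0 < r) (s0 : 0 < s) (hf : In (_root_.Vale.Agent.P352X.G1.Hs (s * u)) f) :
    Usc c.Q r s (R c Φ u fun z => f (scp r s z)) =
      ((r : ℂ)⁻¹ * (s : ℂ)⁻¹ / s) • R c Φ (s * u) f :=
  r_map t h (scpL r s) s0 (by simp) (fun z => null_ext (by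
      simp only [scpL_apply, _root_.Vale.Agent.P352X.G1.al_cK, tx_scp, al_smul, al_scp, d2_smul, d2_smul_l, ← mul_assoc,
        Real.mul_self_sqrt (mul_pos r0 s0).le, mul_comm s r])
    (by simp [_root_.Vale.Agent.P352X.G1.be_cK]; ring) (by
      simp only [scpL_apply, _root_.Vale.Agent.P352X.G1.tx_cK, tx_scp, be_scp, tx_smul]
      module)) (fun y => t.grp.sc_ut r s y r0 s0) (fun q => t.grp.sc_S r s q r0 s0)
    (fun f hf => _root_.Vale.Agent.P352X.G1.w1 r s ▸ h.cov.sca r s f r0 s0 hf)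
    (fun f hf => _root_.Vale.Agent.P352X.G1.in_scp hf r0 s0 fun z hz => neg_of_mul_neg_right (by simpa [_root_.Vale.Agent.P352X.G1.Hs] using hz) s0.le) hf

theorem r_lin (hf : In (_root_.Vale.Agent.P352X.G1.Hs u) f) (hg : In (_root_.Vale.Agent.P352X.G1.Hs u) g) (a : ℂ) :
    R c Φ u (f + a • g) = R c Φ u f + a • R c Φ u g := by
  have k := _root_.Vale.Agent.P352X.G1.hs_tr hf (u • vb) (v := 0) (by simp)
  have k' := _root_.Vale.Agent.P352X.G1.hs_tr hg (u • vb) (v := 0) (by simp)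
  rw [R, RY, RY, RY, show _root_.Vale.Agent.P352X.G1.tr (u • vb) (f + a • g) = _root_.Vale.Agent.P352X.G1.tr (u • vb) f + a • _root_.Vale.Agent.P352X.G1.tr (u • vb) g from rfl, R0,
    R0, R0, _root_.Vale.Agent.P352X.G1.Kc_add (_root_.Vale.Agent.P352X.G1.diff k) (_root_.Vale.Agent.P352X.G1.diff k'), map_add, map_smul,
    gen_add (h.dm t k) ((h.dm t k').smul a), gen_smul a (h.dm t k')]
  simp only [map_add, map_sub, map_smul]
  module

theorem r_bd {K : Set V} (hK : IsCompact K) (k : K ⊆ _root_.Vale.Agent.P352X.G1.Hs u) : _root_.Vale.Agent.P352X.G1.BD K fun f => ‖R c Φ u f‖ := by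
  have hK' := hK.image (f := fun z => z - u • vb) (by fun_prop)
  refine _root_.Vale.Agent.P352X.G1.BD.le (((h.dom t hK' ?_).2.add ((cbd h.cov hK').lo (_root_.Vale.Agent.P352X.G1.lo_Kc 2))).comp (_root_.Vale.Agent.P352X.G1.cl_tr (u • vb))
    fun f hf z hz => ⟨_, hf (_root_.Vale.Agent.P352X.G1.tsupp_tr f _ hz), by simp⟩) hK 1 fun f _ => ?_
  · rintro _ ⟨z, hz, rfl⟩
    simpa [_root_.Vale.Agent.P352X.G1.Hs] using k hz
  · rw [R, RY, ut_norm t, R0]
    simpa [norm_smul] using norm_sub_le (I • gen c.SK (Φ (_root_.Vale.Agent.P352X.G1.tr (u • vb) f))) _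

theorem r_perp (hf : In (_root_.Vale.Agent.P352X.G1.Hs u) f) : inner ℂ c.Om (R c Φ u f) = 0 := by
  have k := _root_.Vale.Agent.P352X.G1.hs_tr hf (u • vb) (v := 0) (by simp)
  rw [R, RY, ← t.grp.vac 1 GF.one (u • vb), ← Ut, Ut, inner_unitary (t.grp.uni _ _ _), R0,
    inner_sub_right, inner_smul_right, (ug_sk t).symm (gn_of_fix fun s => c.hS.vac _ s t.grp.na)
      (h.dm t k).gn, h.cov.perp _ (_root_.Vale.Agent.P352X.G1.all ((_root_.Vale.Agent.P352X.G1.lo_Kc 2).mem k))]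
  simp

theorem r_aff (E : EEZ c) {lo : ℝ} (hf : In (_root_.Vale.Agent.P352X.G1.Hs lo) f) (hi : ℝ) :
    ∃ A B, ∀ u ∈ Ioo lo hi, R c Φ u f = A + (u : ℂ) • B := by
  have k : ∀ u ∈ Ioo lo hi, In (_root_.Vale.Agent.P352X.G1.Hs (be (u • vb))) f := fun u hu =>
    _root_.Vale.Agent.P352X.G1.mono hf fun z hz => by simpa [_root_.Vale.Agent.P352X.G1.Hs] using hz.trans hu.1
  have p : Gn (Pb c.Q) _ _ := gn_ut h.cov (_root_.Vale.Agent.P352X.G1.all hf) vb
  obtain ⟨k0, k1, e⟩ := E lo hi (Φ f) (fun u hu => (gn_ky t h (k u hu)).dm) p.dm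
  refine ⟨I • k0 - Φ (Kc 2 f), I • k1 - Φ fun z => fderiv ℝ f z ((2 : ℝ) • z + (2 * be z) • vb -
    (2 * al z) • va) + 4 * f z, fun u hu => ?_⟩
  rw [R, ry_eq t h (k u hu), e u hu, p.gen_eq, show (fun z => -fderiv ℝ f z (cK va (z - u • vb)) +
    ((2 * 2 - 8) * (be z - be (u • vb)) : ℝ) * f z) = Kc 2 f + (u : ℂ) • (fun z => fderiv ℝ f z
      ((2 : ℝ) • z + (2 * be z) • vb - (2 * al z) • va) + 4 * f z) - (2 * u ^ 2 : ℂ) • dv vb f from
    funext fun z => by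
      rw [show cK va (z - u • vb) = cK va z - u • ((2 : ℝ) • z + (2 * be z) • vb -
        (2 * al z) • va) + (2 * u ^ 2) • vb from null_ext (by simp [_root_.Vale.Agent.P352X.G1.al_cK]) (by simp [_root_.Vale.Agent.P352X.G1.be_cK]; ring)
          (by
            simp only [_root_.Vale.Agent.P352X.G1.tx_cK, tx_add, tx_sub, tx_smul, be_sub, be_smul, be_vb, tx_vb, tx_va]
            module)]
      simp [_root_.Vale.Agent.P352X.G1.Kc_eq (_root_.Vale.Agent.P352X.G1.diff hf z), _root_.Vale.Agent.P352X.G1.dv_eq (_root_.Vale.Agent.P352X.G1.diff hf z)]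
      ring]
  simp only [map_add, map_sub, map_smul]
  push_cast
  match_scalars <;> simp [← mul_assoc] <;> ring_nf <;> simp

end G1Z

end Vale.Agent.P352X
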